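import Mathlib

/-!
# P260, block C3 (i): rank-metric codes over `ZMod q`

`exists_code`: there are `14 l + 1` matrices `f_t` of size `l × l` over `ZMod q` such that every
nonzero matrix orthogonal to all the `f_t` has rank at least eight (counting argument).
-/

namespace Vale.Agent.P260.H907

open Finset Matrix

section code

variable {K : Type*} [Field K] {l : ℕ}

/-- The pairing of two square matrices. -/
def pr (f c : Matrix (Fin l) (Fin l) K) : K := ∑ i, ∑ j, f i j * c i j

/-- The pairing as a linear map of the first variable. -/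
def prL (c : Matrix (Fin l) (Fin l) K) : Matrix (Fin l) (Fin l) K →ₗ[K] K where
  toFun f := pr f c
  map_add' f g := by
    simp only [pr, Matrix.add_apply, add_mul, Finset.sum_add_distrib]
  map_smul' a f := by
    simp only [pr, Matrix.smul_apply, smul_eq_mul, RingHom.id_apply, Finset.mul_sum, mul_assoc]

@[simp] theorem prL_apply (f c : Matrix (Fin l) (Fin l) K) : prL c f = pr f c := rfl

theorem prL_surjective {c : Matrix (Fin l) (Fin l) K} (hc : c ≠ 0) :
    Function.Surjective (prL c) := by
  classical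
  have h : ∃ i j, c i j ≠ 0 := by
    by_contra hcon
    push Not at hcon
    exact hc (Matrix.ext hcon)
  obtain ⟨i, j, hij⟩ := h
  intro x
  refine ⟨Matrix.single i j (x / c i j), ?_⟩
  rw [prL_apply, pr, Finset.sum_eq_single i, Finset.sum_eq_single j]
  · rw [Matrix.single_apply_same, div_mul_cancel₀ _ hij]
  · intro b _ hb
    rw [Matrix.single_apply_of_ne, zero_mul]
    exact fun h => hb h.2.symm
  · intro h; exact absurd (Finset.mem_univ _) h
  · intro b _ hb
    refine Finset.sum_eq_zero fun a _ => ?_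
    rw [Matrix.single_apply_of_ne, zero_mul]
    exact fun h => hb h.1.symm
  · intro h; exact absurd (Finset.mem_univ _) h

/-- Rank factorisation. -/
theorem exists_factor {r : ℕ} (c : Matrix (Fin l) (Fin l) K) (hc : c.rank ≤ r) :
    ∃ (A : Matrix (Fin l) (Fin r) K) (B : Matrix (Fin r) (Fin l) K), A * B = c := by
  classical
  set W := LinearMap.range c.mulVecLin with hW
  have h1 : Module.finrank K W ≤ Module.finrank K (Fin r → K) := by
    rw [Module.finrank_fin_fun]
    exact hc
  obtain ⟨j, hj⟩ := finrank_le_iff_exists_linearMap.mp h1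
  obtain ⟨p, hp⟩ := j.exists_leftInverse_of_injective (LinearMap.ker_eq_bot.mpr hj)
  refine ⟨LinearMap.toMatrix' (W.subtype ∘ₗ p),
    LinearMap.toMatrix' (j ∘ₗ c.mulVecLin.rangeRestrict), ?_⟩
  rw [← LinearMap.toMatrix'_comp]
  have h2 : (W.subtype ∘ₗ p) ∘ₗ (j ∘ₗ c.mulVecLin.rangeRestrict) = c.mulVecLin := by
    refine LinearMap.ext fun x => ?_
    have h3 : p (j (c.mulVecLin.rangeRestrict x)) = c.mulVecLin.rangeRestrict x := by
      have := LinearMap.congr_fun hp (c.mulVecLin.rangeRestrict x)
      simpa using this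
    simp only [LinearMap.comp_apply, h3]
    rfl
  rw [h2, ← Matrix.toLin'_apply', LinearMap.toMatrix'_toLin']

end code

section count

variable {q : ℕ} [Fact q.Prime] {l : ℕ}

/-- The number of matrices orthogonal to a given nonzero one. -/
theorem card_orth {c : Matrix (Fin l) (Fin l) (ZMod q)} (hc : c ≠ 0) :
    q * (Finset.univ.filter fun f : Matrix (Fin l) (Fin l) (ZMod q) => pr f c = 0).card =
      Fintype.card (Matrix (Fin l) (Fin l) (ZMod q)) := by
  classical
  have h1 := Submodule.card_eq_card_quotient_mul_card (LinearMap.ker (prL c))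
  have h2 : Nat.card (Matrix (Fin l) (Fin l) (ZMod q) ⧸ LinearMap.ker (prL c)) = q := by
    rw [Nat.card_congr ((prL c).quotKerEquivOfSurjective (prL_surjective hc)).toEquiv,
      Nat.card_eq_fintype_card, ZMod.card]
  rw [h2] at h1
  have h3 : (Finset.univ.filter fun f : Matrix (Fin l) (Fin l) (ZMod q) => pr f c = 0).card =
      Nat.card (LinearMap.ker (prL c)) := by
    rw [Nat.card_eq_fintype_card, Fintype.card_subtype]
    refine congrArg Finset.card (Finset.filter_congr fun f _ => ?_)
    rw [LinearMap.mem_ker, prL_apply]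
  rw [h3, ← Nat.card_eq_fintype_card, h1, mul_comm]

/-- One step of the greedy choice. -/
theorem greedy_step (B : Finset (Matrix (Fin l) (Fin l) (ZMod q))) (hB : ∀ c ∈ B, c ≠ 0) :
    ∃ f : Matrix (Fin l) (Fin l) (ZMod q), q * (B.filter fun c => pr f c = 0).card ≤ B.card := by
  classical
  by_contra hcon
  push Not at hcon
  have h1 : ∑ _f : Matrix (Fin l) (Fin l) (ZMod q), B.card <
      ∑ f : Matrix (Fin l) (Fin l) (ZMod q), q * (B.filter fun c => pr f c = 0).card :=
    Finset.sum_lt_sum_of_nonempty Finset.univ_nonempty fun f _ => hcon f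
  have h2 : ∑ f : Matrix (Fin l) (Fin l) (ZMod q), q * (B.filter fun c => pr f c = 0).card =
      ∑ c ∈ B, q * (Finset.univ.filter fun f : Matrix (Fin l) (Fin l) (ZMod q) =>
        pr f c = 0).card := by
    rw [← Finset.mul_sum, ← Finset.mul_sum]
    congr 1
    simp only [Finset.card_filter]
    exact Finset.sum_comm
  have h3 : ∑ c ∈ B, q * (Finset.univ.filter fun f : Matrix (Fin l) (Fin l) (ZMod q) =>
        pr f c = 0).card = ∑ _c ∈ B, Fintype.card (Matrix (Fin l) (Fin l) (ZMod q)) :=
    Finset.sum_congr rfl fun c hc => card_orth (hB c hc)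
  rw [h2, h3, Finset.sum_const, Finset.sum_const, smul_eq_mul, smul_eq_mul, Finset.card_univ,
    mul_comm] at h1
  exact lt_irrefl _ h1

/-- The greedy choice. -/
theorem greedy (B : Finset (Matrix (Fin l) (Fin l) (ZMod q))) (hB : ∀ c ∈ B, c ≠ 0) (m : ℕ) :
    ∃ f : Fin m → Matrix (Fin l) (Fin l) (ZMod q),
      q ^ m * (B.filter fun c => ∀ t, pr (f t) c = 0).card ≤ B.card := by
  classical
  induction m with
  | zero =>
    refine ⟨fun t => t.elim0, ?_⟩
    rw [pow_zero, one_mul]
    exact Finset.card_le_card (Finset.filter_subset _ _)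
  | succ m ih =>
    obtain ⟨f, hf⟩ := ih
    obtain ⟨g, hg⟩ := greedy_step (B.filter fun c => ∀ t, pr (f t) c = 0)
      fun c hc => hB c (Finset.mem_filter.mp hc).1
    refine ⟨Fin.snoc f g, ?_⟩
    have h1 : (B.filter fun c => ∀ t, pr ((Fin.snoc f g : Fin (m + 1) → _) t) c = 0) =
        (B.filter fun c => ∀ t, pr (f t) c = 0).filter fun c => pr g c = 0 := by
      ext c
      simp only [Finset.mem_filter, Fin.forall_fin_succ', Fin.snoc_castSucc, Fin.snoc_last,
        and_assoc]
    rw [h1]
    calc q ^ (m + 1) * _ = q ^ m * (q * _) := by rw [pow_succ, mul_assoc]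
      _ ≤ q ^ m * _ := Nat.mul_le_mul_left _ hg
      _ ≤ B.card := hf

/-- The number of matrices of rank at most `r`. -/
theorem card_rank_le (r : ℕ) :
    (Finset.univ.filter fun c : Matrix (Fin l) (Fin l) (ZMod q) => c.rank ≤ r).card ≤
      q ^ (2 * r * l) := by
  classical
  have h1 : (Finset.univ.filter fun c : Matrix (Fin l) (Fin l) (ZMod q) => c.rank ≤ r) ⊆
      (Finset.univ : Finset (Matrix (Fin l) (Fin r) (ZMod q) ×
        Matrix (Fin r) (Fin l) (ZMod q))).image fun p => p.1 * p.2 := by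
    intro c hc
    obtain ⟨A, B, hAB⟩ := exists_factor c (Finset.mem_filter.mp hc).2
    exact Finset.mem_image.mpr ⟨(A, B), Finset.mem_univ _, hAB⟩
  refine (Finset.card_le_card h1).trans (Finset.card_image_le.trans ?_)
  rw [Finset.card_univ, Fintype.card_prod]
  have h2 : Fintype.card (Matrix (Fin l) (Fin r) (ZMod q)) = q ^ (r * l) := by
    rw [← Nat.card_eq_fintype_card, Matrix, Nat.card_fun, Nat.card_fun]
    simp only [Nat.card_eq_fintype_card, ZMod.card, Fintype.card_fin]
    rw [← pow_mul]
  have h3 : Fintype.card (Matrix (Fin r) (Fin l) (ZMod q)) = q ^ (r * l) := by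
    rw [← Nat.card_eq_fintype_card, Matrix, Nat.card_fun, Nat.card_fun]
    simp only [Nat.card_eq_fintype_card, ZMod.card, Fintype.card_fin]
    rw [← pow_mul, mul_comm]
  rw [h2, h3, ← pow_add]
  exact Nat.pow_le_pow_right (Fact.out : q.Prime).pos (by ring_nf; rfl)

end count

/-- **Rank-metric codes exist.** -/
theorem exists_code (q : ℕ) [Fact q.Prime] (l : ℕ) :
    ∃ f : Fin (14 * l + 1) → Matrix (Fin l) (Fin l) (ZMod q),
      ∀ c : Matrix (Fin l) (Fin l) (ZMod q), c ≠ 0 →
        (∀ t, ∑ i, ∑ j, f t i j * c i j = 0) → 8 ≤ c.rank := by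
  classical
  set B : Finset (Matrix (Fin l) (Fin l) (ZMod q)) :=
    (Finset.univ.filter fun c => c.rank ≤ 7).filter fun c => c ≠ 0 with hB
  obtain ⟨f, hf⟩ := greedy B (fun c hc => (Finset.mem_filter.mp hc).2) (14 * l + 1)
  refine ⟨f, fun c hc0 hc => ?_⟩
  by_contra hrank
  have h1 : c ∈ B.filter fun c => ∀ t, pr (f t) c = 0 := by
    refine Finset.mem_filter.mpr ⟨?_, hc⟩
    refine Finset.mem_filter.mpr ⟨Finset.mem_filter.mpr ⟨Finset.mem_univ _, by omega⟩, hc0⟩
  have h2 : 1 ≤ (B.filter fun c => ∀ t, pr (f t) c = 0).card :=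
    Finset.card_pos.mpr ⟨c, h1⟩
  have h3 : B.card ≤ q ^ (2 * 7 * l) :=
    (Finset.card_le_card (Finset.filter_subset _ _)).trans (card_rank_le 7)
  have h4 : q ^ (14 * l + 1) ≤ q ^ (2 * 7 * l) :=
    calc q ^ (14 * l + 1) = q ^ (14 * l + 1) * 1 := (mul_one _).symm
      _ ≤ _ := Nat.mul_le_mul_left _ h2
      _ ≤ B.card := hf
      _ ≤ _ := h3
  have h5 := (Nat.pow_le_pow_iff_right (Fact.out : q.Prime).one_lt).mp h4
  omega

end Vale.Agent.P260.H907
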