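import Vale.Agent.P260.Defs
import Vale.Agent.P260.H907.Code
import Vale.Agent.P300.H863.Fox

/-!
# P260, block C3 (ii): the relators

* `rel f : KK l → FreeGroup (Fin 16 × Fin l)`, degrees `deg : KK l → ℕ` (two or three),
  `rel_mem : of (rel f k) - 1 ∈ augF (ZMod q) F (deg k)`.
* `card_K2 = 16 l² + 1696 l + 120`, `card_K3 = 240 l³`.
* `angleData`: every quotient of the free group killing all relators carries `AngleData`.
-/

namespace Vale.Agent.P260.H907

open Vale.Agent.P300.GS MonoidAlgebra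
open scoped commutatorElement

/-! ### Dimension subgroups -/

section dim

variable {F : Type*} [Field F] {G : Type*} [Group G]

variable (F G) in
/-- The dimension subgroups: `g - 1 ∈ I ^ n`. -/
noncomputable def dimS (n : ℕ) : Subgroup G where
  carrier := {g | of F G g - 1 ∈ augF F G n}
  one_mem' := by
    show of F G 1 - 1 ∈ augF F G n
    rw [map_one, sub_self]
    exact zero_mem _
  mul_mem' := fun {a b} ha hb => by
    have e : of F G (a * b) - 1 = of F G a * (of F G b - 1) + (of F G a - 1) := by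
      rw [mul_sub, ← map_mul, mul_one]
      abel
    show of F G (a * b) - 1 ∈ augF F G n
    rw [e]
    exact add_mem (augF_mul_left _ hb) ha
  inv_mem' := fun {a} ha => by
    have e : of F G a⁻¹ - 1 = -(of F G a⁻¹ * (of F G a - 1)) := by
      rw [mul_sub, ← map_mul, inv_mul_cancel, map_one, mul_one]
      abel
    show of F G a⁻¹ - 1 ∈ augF F G n
    rw [e]
    exact neg_mem (augF_mul_left _ ha)

theorem mem_dimS {n : ℕ} {g : G} : g ∈ dimS F G n ↔ of F G g - 1 ∈ augF F G n := Iff.rfl

theorem dimS_one (g : G) : g ∈ dimS F G 1 := augF_one_sub g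

theorem dimS_anti {m n : ℕ} (h : m ≤ n) {g : G} (hg : g ∈ dimS F G n) : g ∈ dimS F G m :=
  augF_anti h hg

theorem comm_mem {a b : G} {m n : ℕ} (ha : a ∈ dimS F G m) (hb : b ∈ dimS F G n) :
    ⁅a, b⁆ ∈ dimS F G (m + n) := by
  have e : of F G ⁅a, b⁆ - 1 = ((of F G a - 1) * (of F G b - 1) -
      (of F G b - 1) * (of F G a - 1)) * (of F G (a⁻¹ * b⁻¹)) := by
    have h1 : (of F G a - 1) * (of F G b - 1) - (of F G b - 1) * (of F G a - 1) =
        of F G (a * b) - of F G (b * a) := by
      rw [map_mul, map_mul]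
      noncomm_ring
    rw [h1, sub_mul, ← map_mul, ← map_mul]
    congr 1
    · rw [commutatorElement_def]
      congr 1
      group
    · have : b * a * (a⁻¹ * b⁻¹) = 1 := by group
      rw [this, map_one]
  rw [mem_dimS, e]
  refine augF_mul_right _ (sub_mem (augF_mul ha hb) ?_)
  rw [add_comm m n]
  exact augF_mul hb ha

theorem pow_mem_dimS (q : ℕ) [Fact q.Prime] [CharP F q] (g : G) : g ^ q ∈ dimS F G 2 := by
  have hc : CharP (MonoidAlgebra F G) q := by
    refine charP_of_injective_algebraMap (R := F) ?_ q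
    exact (algebraMap F (MonoidAlgebra F G)).injective
  have e : of F G (g ^ q) - 1 = (of F G g - 1) ^ q := by
    rw [sub_pow_char_of_commute _ (Commute.one_right _), one_pow, map_pow]
  rw [mem_dimS, e]
  have h2 : ∀ n : ℕ, (of F G g - 1) ^ n ∈ augF F G n := by
    intro n
    induction n with
    | zero => rw [augF_zero]; trivial
    | succ n ih => rw [pow_succ]; exact augF_mul ih (augF_one_sub g)
  exact augF_anti (Fact.out : q.Prime).two_le (h2 q)

theorem list_prod_mem_dimS {n : ℕ} (L : List G) (hL : ∀ g ∈ L, g ∈ dimS F G n) :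
    L.prod ∈ dimS F G n := Subgroup.list_prod_mem _ hL

end dim

/-! ### The relators -/

section words

/-- Pairs of blocks. -/
abbrev Prs := {p : Fin 16 × Fin 16 // p.1 < p.2}

/-- Indices of the relators of degree two. -/
abbrev K2 (l : ℕ) := (Fin 16 × Fin l) ⊕ (Fin 16 × Fin l × Fin l) ⊕ (Prs × Fin (14 * l + 1))

/-- Indices of the relators of degree three. -/
abbrev K3 (l : ℕ) := Prs × Bool × Fin l × Fin l × Fin l

/-- Indices of the relators. -/
abbrev KK (l : ℕ) := K2 l ⊕ K3 l

variable {q l : ℕ}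

/-- The code word attached to a matrix. -/
noncomputable def codeWord {G : Type*} [Group G] (z : Fin l × Fin l → G)
    (f : Matrix (Fin l) (Fin l) (ZMod q)) : G :=
  ((Finset.univ : Finset (Fin l × Fin l)).toList.map fun p => z p ^ (f p.1 p.2).val).prod

/-- The relators. -/
noncomputable def rel (f : Fin (14 * l + 1) → Matrix (Fin l) (Fin l) (ZMod q)) :
    KK l → FreeGroup (Fin 16 × Fin l)
  | Sum.inl (Sum.inl p) => FreeGroup.of p ^ q
  | Sum.inl (Sum.inr (Sum.inl p)) =>
      ⁅FreeGroup.of (p.1, p.2.1), FreeGroup.of (p.1, p.2.2)⁆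
  | Sum.inl (Sum.inr (Sum.inr p)) =>
      codeWord (fun r => ⁅FreeGroup.of (p.1.1.1, r.1), FreeGroup.of (p.1.1.2, r.2)⁆) (f p.2)
  | Sum.inr p =>
      ⁅⁅FreeGroup.of (p.1.1.1, p.2.2.1), FreeGroup.of (p.1.1.2, p.2.2.2.1)⁆,
        FreeGroup.of (if p.2.1 then p.1.1.1 else p.1.1.2, p.2.2.2.2)⁆

/-- The degrees of the relators. -/
def deg : KK l → ℕ
  | Sum.inl _ => 2
  | Sum.inr _ => 3

@[simp] theorem deg_inl (k : K2 l) : deg (Sum.inl k : KK l) = 2 := rfl

@[simp] theorem deg_inr (k : K3 l) : deg (Sum.inr k : KK l) = 3 := rfl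

theorem card_Prs : Fintype.card Prs = 120 := by decide +kernel

theorem card_K2 (l : ℕ) : Fintype.card (K2 l) = 16 * l ^ 2 + 1696 * l + 120 := by
  simp only [K2, Fintype.card_sum, Fintype.card_prod, Fintype.card_fin, card_Prs]
  ring

theorem card_K3 (l : ℕ) : Fintype.card (K3 l) = 240 * l ^ 3 := by
  simp only [K3, Fintype.card_prod, Fintype.card_fin, card_Prs, Fintype.card_bool]
  ring

theorem rel_mem_dimS [Fact q.Prime] {F : Type*} [Field F] [CharP F q]
    (f : Fin (14 * l + 1) → Matrix (Fin l) (Fin l) (ZMod q)) (k : KK l) :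
    rel f k ∈ dimS F (FreeGroup (Fin 16 × Fin l)) (deg k) := by
  have h2 : ∀ a b : FreeGroup (Fin 16 × Fin l),
      ⁅a, b⁆ ∈ dimS F (FreeGroup (Fin 16 × Fin l)) 2 := fun a b => by
    have h := comm_mem (F := F) (dimS_one (F := F) a) (dimS_one (F := F) b)
    rwa [one_add_one_eq_two] at h
  rcases k with (p | p | p) | p
  · rw [rel, deg]
    exact pow_mem_dimS q _
  · rw [rel, deg]
    exact h2 _ _
  · rw [rel, deg, codeWord]
    refine list_prod_mem_dimS _ fun g hg => ?_
    obtain ⟨r, -, rfl⟩ := List.mem_map.mp hg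
    exact pow_mem (h2 _ _) _
  · rw [rel, deg]
    have h := comm_mem (F := F) (h2 (FreeGroup.of (p.1.1.1, p.2.2.1))
      (FreeGroup.of (p.1.1.2, p.2.2.2.1)))
      (dimS_one (F := F) (FreeGroup.of (if p.2.1 then p.1.1.1 else p.1.1.2, p.2.2.2.2)))
    rwa [show 2 + 1 = 3 from rfl] at h

theorem rel_mem [Fact q.Prime] {F : Type*} [Field F] [CharP F q]
    (f : Fin (14 * l + 1) → Matrix (Fin l) (Fin l) (ZMod q)) (k : KK l) :
    of F (FreeGroup (Fin 16 × Fin l)) (rel f k) - 1 ∈
      augF F (FreeGroup (Fin 16 × Fin l)) (deg k) := rel_mem_dimS f k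

theorem map_codeWord {G H : Type*} [Group G] [Group H] (φ : G →* H) (z : Fin l × Fin l → G)
    (f : Matrix (Fin l) (Fin l) (ZMod q)) :
    φ (codeWord z f) = codeWord (fun p => φ (z p)) f := by
  unfold codeWord
  rw [map_list_prod, List.map_map]
  congr 1
  refine List.map_congr_left fun p _ => ?_
  simp

end words

/-! ### The code property -/

section angle

variable {q l : ℕ} [Fact q.Prime] {Q : Type*} [Group Q]

theorem code_of {m : ℕ} (f : Fin m → Matrix (Fin l) (Fin l) (ZMod q))
    (hf : ∀ c : Matrix (Fin l) (Fin l) (ZMod q), c ≠ 0 →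
        (∀ t, ∑ i, ∑ j, f t i j * c i j = 0) → 8 ≤ c.rank)
    (z : Fin l × Fin l → Q) (hrel : ∀ t, codeWord z (f t) = 1) (Z : Subgroup Q)
    (hz : ∀ p, z p ∈ Z) (hgen : Z ≤ Subgroup.closure (Set.range z))
    (ψ : Z →* Multiplicative (ZMod q)) (hψ : ψ ≠ 1) :
    8 ≤ (Matrix.of fun i j => Multiplicative.toAdd (ψ ⟨z (i, j), hz (i, j)⟩)).rank := by
  refine hf _ ?_ fun t => ?_
  · intro h0
    refine hψ (MonoidHom.ext fun y => ?_)
    have h1 : Z = Subgroup.closure (Set.range z) := by
      refine le_antisymm hgen ?_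
      rw [Subgroup.closure_le]
      rintro _ ⟨p, rfl⟩
      exact hz p
    have h2 : ∀ y ∈ Subgroup.closure (Set.range z), ∀ hy : y ∈ Z, ψ ⟨y, hy⟩ = 1 := by
      intro y hy
      induction hy using Subgroup.closure_induction with
      | mem x hx =>
        obtain ⟨p, rfl⟩ := hx
        intro hy
        have := congrFun (congrFun h0 p.1) p.2
        exact this
      | one => intro hy; exact map_one ψ
      | mul x y hx hy ihx ihy =>
        intro hxy
        have hx' : x ∈ Z := h1 ▸ hx
        have hy' : y ∈ Z := h1 ▸ hy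
        have e : (⟨x * y, hxy⟩ : Z) = ⟨x, hx'⟩ * ⟨y, hy'⟩ := rfl
        rw [e, map_mul, ihx hx', ihy hy', one_mul]
      | inv x hx ih =>
        intro hxi
        have hx' : x ∈ Z := h1 ▸ hx
        have e : (⟨x⁻¹, hxi⟩ : Z) = ⟨x, hx'⟩⁻¹ := rfl
        rw [e, map_inv, ih hx', inv_one]
    exact h2 y.1 (hgen y.2) y.2
  · have h1 : codeWord (fun p => (⟨z p, hz p⟩ : Z)) (f t) = 1 := by
      refine Subtype.ext ?_
      have := map_codeWord Z.subtype (fun p => (⟨z p, hz p⟩ : Z)) (f t)
      rw [Subgroup.subtype_apply] at this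
      rw [this]
      exact hrel t
    have h2 := congrArg ψ h1
    rw [map_codeWord, map_one] at h2
    unfold codeWord at h2
    rw [Finset.prod_map_toList] at h2
    have h3 := congrArg Multiplicative.toAdd h2
    rw [toAdd_prod, toAdd_one, ← Finset.univ_product_univ, Finset.sum_product] at h3
    rw [← h3]
    refine Finset.sum_congr rfl fun i _ => Finset.sum_congr rfl fun j _ => ?_
    rw [toAdd_pow, nsmul_eq_mul, ZMod.natCast_val, ZMod.cast_id', id, Matrix.of_apply]

theorem rank_neg' (A : Matrix (Fin l) (Fin l) (ZMod q)) : (-A).rank = A.rank := by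
  have h : -A = A * (-1) := by rw [mul_neg, mul_one]
  rw [h, Matrix.rank_mul_eq_left_of_isUnit_det]
  rw [← Matrix.isUnit_iff_isUnit_det]
  exact isUnit_one.neg

theorem code_of_swap {m : ℕ} (f : Fin m → Matrix (Fin l) (Fin l) (ZMod q))
    (hf : ∀ c : Matrix (Fin l) (Fin l) (ZMod q), c ≠ 0 →
        (∀ t, ∑ i, ∑ j, f t i j * c i j = 0) → 8 ≤ c.rank)
    (z w : Fin l × Fin l → Q) (hzw : ∀ i j, z (i, j) = (w (j, i))⁻¹)
    (hrel : ∀ t, codeWord w (f t) = 1) (Z : Subgroup Q)
    (hz : ∀ p, z p ∈ Z) (hgen : Z ≤ Subgroup.closure (Set.range z))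
    (ψ : Z →* Multiplicative (ZMod q)) (hψ : ψ ≠ 1) :
    8 ≤ (Matrix.of fun i j => Multiplicative.toAdd (ψ ⟨z (i, j), hz (i, j)⟩)).rank := by
  have hw : ∀ r : Fin l × Fin l, w r ∈ Z := by
    intro r
    have h := inv_mem (hz (r.2, r.1))
    rwa [hzw, inv_inv] at h
  have h1 := code_of f hf w hrel Z hw (by
    refine hgen.trans ?_
    rw [Subgroup.closure_le]
    rintro _ ⟨r, rfl⟩
    have h : z r = (w (r.2, r.1))⁻¹ := hzw r.1 r.2
    rw [SetLike.mem_coe, h]
    exact inv_mem (Subgroup.subset_closure ⟨(r.2, r.1), rfl⟩)) ψ hψ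
  have h2 : (Matrix.of fun i j => Multiplicative.toAdd (ψ ⟨w (i, j), hw (i, j)⟩)) =
      -(Matrix.of fun i j => Multiplicative.toAdd (ψ ⟨z (i, j), hz (i, j)⟩)).transpose := by
    ext i j
    rw [Matrix.of_apply, Matrix.neg_apply, Matrix.transpose_apply, Matrix.of_apply,
      ← toAdd_inv, ← map_inv]
    congr 2
    refine Subtype.ext ?_
    rw [Subgroup.coe_inv]
    show w (i, j) = (z (j, i))⁻¹
    rw [hzw, inv_inv]
  rw [h2, rank_neg', Matrix.rank_transpose] at h1
  exact h1

theorem commute_of_comm {a b : Q} (h : ⁅a, b⁆ = 1) : Commute a b :=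
  commutatorElement_eq_one_iff_commute.mp h

/-- **Every quotient killing the relators carries angle data.** -/
noncomputable def angleData (f : Fin (14 * l + 1) → Matrix (Fin l) (Fin l) (ZMod q))
    (hf : ∀ c : Matrix (Fin l) (Fin l) (ZMod q), c ≠ 0 →
        (∀ t, ∑ i, ∑ j, f t i j * c i j = 0) → 8 ≤ c.rank)
    (p : FreeGroup (Fin 16 × Fin l) →* Q) (hp : Function.Surjective p)
    (hrel : ∀ k, p (rel f k) = 1) : AngleData q l Q where
  x a i := p (FreeGroup.of (a, i))
  gen := by
    have h1 : Set.range (fun r : Fin 16 × Fin l => p (FreeGroup.of (r.1, r.2))) =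
        p '' Set.range FreeGroup.of := by
      rw [← Set.range_comp]
      rfl
    rw [h1, ← MonoidHom.map_closure, FreeGroup.closure_range_of, ← MonoidHom.range_eq_map,
      MonoidHom.range_eq_top.mpr hp]
  pow a i := by
    have := hrel (Sum.inl (Sum.inl (a, i)))
    rwa [rel, map_pow] at this
  comm a i j := by
    have := hrel (Sum.inl (Sum.inr (Sum.inl (a, i, j))))
    rw [rel, map_commutatorElement] at this
    exact commute_of_comm this
  triple a b i j k hab := by
    rcases lt_or_gt_of_ne hab with h | h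
    · have := hrel (Sum.inr (⟨(a, b), h⟩, true, i, j, k))
      rw [rel, map_commutatorElement, map_commutatorElement] at this
      exact commute_of_comm this
    · have := hrel (Sum.inr (⟨(b, a), h⟩, false, j, i, k))
      rw [rel, map_commutatorElement, map_commutatorElement] at this
      have h2 := (commute_of_comm this).inv_left
      rw [commutatorElement_inv] at h2
      exact h2
  code a b hab ψ hψ := by
    rcases lt_or_gt_of_ne hab with h | h
    · refine code_of f hf (fun r => ⁅p (FreeGroup.of (a, r.1)), p (FreeGroup.of (b, r.2))⁆)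
        (fun t => ?_) (Subgroup.closure (Set.range fun r : Fin l × Fin l =>
          ⁅p (FreeGroup.of (a, r.1)), p (FreeGroup.of (b, r.2))⁆))
        (fun r => Subgroup.subset_closure ⟨r, rfl⟩) le_rfl ψ hψ
      have := hrel (Sum.inl (Sum.inr (Sum.inr (⟨(a, b), h⟩, t))))
      rw [rel, map_codeWord] at this
      simpa only [map_commutatorElement] using this
    · refine code_of_swap f hf (fun r => ⁅p (FreeGroup.of (a, r.1)), p (FreeGroup.of (b, r.2))⁆)
        (fun r => ⁅p (FreeGroup.of (b, r.1)), p (FreeGroup.of (a, r.2))⁆)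
        (fun i j => (commutatorElement_inv _ _).symm)
        (fun t => ?_) (Subgroup.closure (Set.range fun r : Fin l × Fin l =>
          ⁅p (FreeGroup.of (a, r.1)), p (FreeGroup.of (b, r.2))⁆))
        (fun r => Subgroup.subset_closure ⟨r, rfl⟩) le_rfl ψ hψ
      have := hrel (Sum.inl (Sum.inr (Sum.inr (⟨(b, a), h⟩, t))))
      rw [rel, map_codeWord] at this
      simpa only [map_commutatorElement] using this

end angle

end Vale.Agent.P260.H907
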